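import Mathlib.Algebra.Order.Star.Real
import Mathlib.Algebra.Ring.IsFormallyReal
import Mathlib.Analysis.SpecialFunctions.Trigonometric.ArctanDeriv
import Mathlib.MeasureTheory.Integral.IntervalIntegral.IntegrationByParts

/-!
# P219: integrals for the model ball (n = 4)

`D = cos² + s² sin² = 1 - t sin²`, `t = 1 - s²`.  `∫_0^{π/2} 1/D = π/(2 s)`: primitive
`(1/s)(θ - arctan ((1-s) sin θ cos θ / (cos² θ + s sin² θ)))`.  `sin² = (1-D)/t`, `cos² = (D-s²)/t`; the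
integrals of `1/D²`, `1/D³` follow from the derivatives of `sin θ cos θ / D`, `sin θ cos θ / D²`.
Then substitute `c = sin θ`.
-/

namespace Vale.Agent.Lib.P219

open MeasureTheory Set Filter Topology

/-! ### primitives -/

private noncomputable def trD (s θ : ℝ) : ℝ := Real.cos θ ^ 2 + s ^ 2 * Real.sin θ ^ 2

private noncomputable def trA (s θ : ℝ) : ℝ :=
  s⁻¹ * (θ - Real.arctan ((1 - s) * (Real.sin θ * Real.cos θ) /
    (Real.cos θ ^ 2 + s * Real.sin θ ^ 2)))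

private theorem trD_pos {s : ℝ} (hs : 0 < s) (θ : ℝ) : 0 < trD s θ := by
  unfold trD
  have h1 := Real.sin_sq_add_cos_sq θ
  have h2 := sq_nonneg (Real.cos θ)
  have h3 := sq_nonneg (Real.sin θ)
  by_cases h : Real.sin θ = 0
  · rw [h] at h1 ⊢
    nlinarith
  · have h4 : 0 < Real.sin θ ^ 2 := by positivity
    positivity

private theorem trE_pos {s : ℝ} (hs : 0 < s) (θ : ℝ) :
    0 < Real.cos θ ^ 2 + s * Real.sin θ ^ 2 := by
  have h1 := Real.sin_sq_add_cos_sq θ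
  have h2 := sq_nonneg (Real.cos θ)
  have h3 := sq_nonneg (Real.sin θ)
  by_cases h : Real.sin θ = 0
  · rw [h] at h1 ⊢
    nlinarith
  · have h4 : 0 < Real.sin θ ^ 2 := by positivity
    positivity

private theorem trD_cont (s : ℝ) : Continuous (trD s) := by
  unfold trD
  fun_prop

private theorem hasDeriv_sc (θ : ℝ) :
    HasDerivAt (fun θ => Real.sin θ * Real.cos θ) (Real.cos θ ^ 2 - Real.sin θ ^ 2) θ := by
  have h := (Real.hasDerivAt_sin θ).mul (Real.hasDerivAt_cos θ)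
  refine h.congr_deriv ?_
  ring

private theorem hasDeriv_D (s θ : ℝ) :
    HasDerivAt (trD s) (-(2 * (1 - s ^ 2) * (Real.sin θ * Real.cos θ))) θ := by
  have h := ((Real.hasDerivAt_cos θ).pow 2).add (((Real.hasDerivAt_sin θ).pow 2).const_mul (s ^ 2))
  refine h.congr_deriv ?_
  simp
  ring

private theorem hasDeriv_E (s θ : ℝ) :
    HasDerivAt (fun θ => Real.cos θ ^ 2 + s * Real.sin θ ^ 2)
      (-(2 * (1 - s) * (Real.sin θ * Real.cos θ))) θ := by
  have h := ((Real.hasDerivAt_cos θ).pow 2).add (((Real.hasDerivAt_sin θ).pow 2).const_mul s)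
  refine h.congr_deriv ?_
  simp
  ring

private theorem hasDeriv_NE {s : ℝ} (hs : 0 < s) (θ : ℝ) :
    HasDerivAt (fun θ => (1 - s) * (Real.sin θ * Real.cos θ) /
      (Real.cos θ ^ 2 + s * Real.sin θ ^ 2))
      ((1 - s) * (Real.cos θ ^ 2 - s * Real.sin θ ^ 2) /
        (Real.cos θ ^ 2 + s * Real.sin θ ^ 2) ^ 2) θ := by
  have hE := trE_pos hs θ
  have h1 := ((hasDeriv_sc θ).const_mul (1 - s)).div (hasDeriv_E s θ) hE.ne'
  refine h1.congr_deriv ?_
  congr 1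
  have h3 := Real.sin_sq_add_cos_sq θ
  generalize Real.sin θ = S at *
  generalize Real.cos θ = C at *
  linear_combination ((1 - s) * (C ^ 2 - s * S ^ 2)) * h3

private theorem hasDeriv_A {s : ℝ} (hs : 0 < s) (θ : ℝ) :
    HasDerivAt (trA s) (1 / trD s θ) θ := by
  have hE := trE_pos hs θ
  have hD := trD_pos hs θ
  have h2 : HasDerivAt (trA s) (s⁻¹ * (1 - 1 / (1 + ((1 - s) * (Real.sin θ * Real.cos θ) /
      (Real.cos θ ^ 2 + s * Real.sin θ ^ 2)) ^ 2) *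
      ((1 - s) * (Real.cos θ ^ 2 - s * Real.sin θ ^ 2) /
        (Real.cos θ ^ 2 + s * Real.sin θ ^ 2) ^ 2))) θ :=
    ((hasDerivAt_id θ).sub (hasDeriv_NE hs θ).arctan).const_mul s⁻¹
  refine h2.congr_deriv ?_
  have h3 := Real.sin_sq_add_cos_sq θ
  have h4 : (Real.cos θ ^ 2 + s * Real.sin θ ^ 2) ^ 2 +
      ((1 - s) * (Real.sin θ * Real.cos θ)) ^ 2 = trD s θ := by
    unfold trD
    generalize Real.sin θ = S at *
    generalize Real.cos θ = C at *
    linear_combination (C ^ 2 + s ^ 2 * S ^ 2) * h3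
  have h5 : 1 + ((1 - s) * (Real.sin θ * Real.cos θ) /
      (Real.cos θ ^ 2 + s * Real.sin θ ^ 2)) ^ 2 =
      trD s θ / (Real.cos θ ^ 2 + s * Real.sin θ ^ 2) ^ 2 := by
    rw [← h4]
    field_simp
  rw [h5]
  have h6 : trD s θ = Real.cos θ ^ 2 + s ^ 2 * Real.sin θ ^ 2 := rfl
  generalize trD s θ = D at *
  generalize Real.sin θ = S at *
  generalize Real.cos θ = C at *
  have hsne := hs.ne'
  have hDne := hD.ne'
  have h7 : 1 / (D / (C ^ 2 + s * S ^ 2) ^ 2) * ((1 - s) * (C ^ 2 - s * S ^ 2) /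
      (C ^ 2 + s * S ^ 2) ^ 2) = (1 - s) * (C ^ 2 - s * S ^ 2) / D := by
    field_simp
  rw [h7]
  field_simp
  linear_combination h6 + s * h3

private theorem alg1 {t S C D : ℝ} (hC : S ^ 2 + C ^ 2 = 1) (hD : D = 1 - t * S ^ 2) (ht : t ≠ 0)
    (hD0 : D ≠ 0) : ((C ^ 2 - S ^ 2) * D - S * C * (-(2 * t * (S * C)))) / D ^ 2 =
      t⁻¹ * ((2 - t) / D - 2 * (1 - t) / D ^ 2) := by
  field_simp
  linear_combination (t * (D + 2 * t * S ^ 2)) * hC + (2 * (t - t * S ^ 2) - 2) * hD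

private theorem alg2 {t S C D : ℝ} (hC : S ^ 2 + C ^ 2 = 1) (hD : D = 1 - t * S ^ 2) (ht : t ≠ 0)
    (hD0 : D ≠ 0) : ((C ^ 2 - S ^ 2) * D ^ 2 - S * C * (2 * D * (-(2 * t * (S * C))))) /
      (D ^ 2) ^ 2 =
      t⁻¹ * (-2 / D + 3 * (2 - t) / D ^ 2 - 4 * (1 - t) / D ^ 3) := by
  field_simp
  linear_combination (t * (D + 4 * t * S ^ 2)) * hC +
    (-4 * (t * S ^ 2) + 4 * t + 2 * D - 4) * hD

private theorem hasDeriv_scD {s : ℝ} (hs : 0 < s) (hs1 : s < 1) (θ : ℝ) :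
    HasDerivAt (fun θ => Real.sin θ * Real.cos θ / trD s θ)
      ((1 - s ^ 2)⁻¹ * ((1 + s ^ 2) / trD s θ - 2 * s ^ 2 / trD s θ ^ 2)) θ := by
  have hD := trD_pos hs θ
  have ht : (1 : ℝ) - s ^ 2 ≠ 0 := by nlinarith
  have h1 := (hasDeriv_sc θ).div (hasDeriv_D s θ) hD.ne'
  refine h1.congr_deriv ?_
  have h2 : trD s θ = 1 - (1 - s ^ 2) * Real.sin θ ^ 2 := by
    unfold trD
    have h3 := Real.sin_sq_add_cos_sq θ
    linear_combination h3
  have h3 := alg1 (Real.sin_sq_add_cos_sq θ) h2 ht hD.ne'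
  rw [h3]
  ring

private theorem hasDeriv_scD2 {s : ℝ} (hs : 0 < s) (hs1 : s < 1) (θ : ℝ) :
    HasDerivAt (fun θ => Real.sin θ * Real.cos θ / trD s θ ^ 2)
      ((1 - s ^ 2)⁻¹ * (-2 / trD s θ + 3 * (1 + s ^ 2) / trD s θ ^ 2 -
        4 * s ^ 2 / trD s θ ^ 3)) θ := by
  have hD := trD_pos hs θ
  have ht : (1 : ℝ) - s ^ 2 ≠ 0 := by nlinarith
  have h1 := (hasDeriv_sc θ).div ((hasDeriv_D s θ).pow 2) (pow_ne_zero 2 hD.ne')
  refine h1.congr_deriv ?_
  have h2 : trD s θ = 1 - (1 - s ^ 2) * Real.sin θ ^ 2 := by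
    unfold trD
    have h3 := Real.sin_sq_add_cos_sq θ
    linear_combination h3
  have h3 := alg2 (Real.sin_sq_add_cos_sq θ) h2 ht hD.ne'
  refine Eq.trans ?_ (h3.trans ?_)
  · congr 1
    simp only [Pi.pow_apply]
    push_cast
    ring
  · ring

private theorem trA_pi (s : ℝ) : trA s (Real.pi / 2) = s⁻¹ * (Real.pi / 2) := by
  unfold trA
  rw [Real.cos_pi_div_two, Real.sin_pi_div_two]
  simp

private theorem trA_zero (s : ℝ) : trA s 0 = 0 := by
  unfold trA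
  simp

private theorem ii_of_cont {f : ℝ → ℝ} (hf : Continuous f) (a b : ℝ) :
    IntervalIntegrable f volume a b := hf.intervalIntegrable a b

theorem int_D_one {s : ℝ} (hs : 0 < s) :
    ∫ θ in (0 : ℝ)..(Real.pi / 2), 1 / (Real.cos θ ^ 2 + s ^ 2 * Real.sin θ ^ 2)
      = Real.pi / (2 * s) := by
  have hc : Continuous (fun θ => 1 / trD s θ) :=
    continuous_const.div (trD_cont s) fun θ => (trD_pos hs θ).ne'
  have h1 := intervalIntegral.integral_eq_sub_of_hasDerivAt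
    (fun θ _ => hasDeriv_A hs θ) (ii_of_cont hc 0 (Real.pi / 2))
  refine h1.trans ?_
  rw [trA_pi, trA_zero]
  field_simp
  ring

theorem int_cos_four {s : ℝ} (hs : 0 < s) (hs1 : s < 1) :
    ∫ θ in (0 : ℝ)..(Real.pi / 2),
        Real.cos θ ^ 4 / (Real.cos θ ^ 2 + s ^ 2 * Real.sin θ ^ 2)
      = Real.pi / 4 * ((1 + 2 * s) / (1 + s) ^ 2) := by
  have ht : (1 : ℝ) - s ^ 2 ≠ 0 := by nlinarith
  have hc : Continuous (fun θ => Real.cos θ ^ 4 / trD s θ) :=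
    (Real.continuous_cos.pow 4).div (trD_cont s) fun θ => (trD_pos hs θ).ne'
  have hd : ∀ θ ∈ uIcc (0 : ℝ) (Real.pi / 2), HasDerivAt (fun θ => ((1 - s ^ 2)⁻¹) ^ 2 *
      ((1 - s ^ 2) * (θ / 2 + Real.sin θ * Real.cos θ / 2) - s ^ 2 * θ + s ^ 4 * trA s θ))
      (Real.cos θ ^ 4 / trD s θ) θ := by
    intro θ _
    have hD := trD_pos hs θ
    have h1 := (((((hasDerivAt_id θ).div_const 2).add ((hasDeriv_sc θ).div_const 2)).const_mul
      (1 - s ^ 2)).sub ((hasDerivAt_id θ).const_mul (s ^ 2))).add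
        ((hasDeriv_A hs θ).const_mul (s ^ 4))
    have h2 := h1.const_mul (((1 - s ^ 2)⁻¹) ^ 2)
    refine h2.congr_deriv ?_
    have h3 := Real.sin_sq_add_cos_sq θ
    have h6 : trD s θ = Real.cos θ ^ 2 + s ^ 2 * Real.sin θ ^ 2 := rfl
    have hDne := hD.ne'
    generalize trD s θ = D at *
    generalize Real.sin θ = S at *
    generalize Real.cos θ = C at *
    have h7 : C ^ 2 = (1 - s ^ 2)⁻¹ * (D - s ^ 2) := by
      field_simp
      linear_combination (-s ^ 2) * h3 - h6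
    have h8 : (1 - s ^ 2) * (1 / 2 + (C ^ 2 - S ^ 2) / 2) = D - s ^ 2 := by
      linear_combination (-(1 + s ^ 2) / 2) * h3 - h6
    have h9 : C ^ 4 = (C ^ 2) ^ 2 := by ring
    rw [h8, h9, h7]
    field_simp
    ring
  have h1 := intervalIntegral.integral_eq_sub_of_hasDerivAt hd (ii_of_cont hc 0 (Real.pi / 2))
  refine h1.trans ?_
  rw [trA_pi, trA_zero, Real.cos_pi_div_two, Real.sin_zero]
  have h2 : (1 : ℝ) + s ≠ 0 := by positivity
  have h3 : (1 : ℝ) - s ≠ 0 := by linarith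
  have h4 : (1 : ℝ) - s ^ 2 = (1 - s) * (1 + s) := by ring
  rw [h4]
  field_simp
  ring

theorem int_sin_cos {s : ℝ} (hs : 0 < s) (hs1 : s < 1) :
    ∫ θ in (0 : ℝ)..(Real.pi / 2),
        Real.sin θ ^ 2 * Real.cos θ ^ 2 / (Real.cos θ ^ 2 + s ^ 2 * Real.sin θ ^ 2) ^ 3
      = Real.pi / (16 * s ^ 3) := by
  have ht : (1 : ℝ) - s ^ 2 ≠ 0 := by nlinarith
  have hc : Continuous (fun θ => Real.sin θ ^ 2 * Real.cos θ ^ 2 / trD s θ ^ 3) :=
    ((Real.continuous_sin.pow 2).mul (Real.continuous_cos.pow 2)).div ((trD_cont s).pow 3)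
      fun θ => pow_ne_zero 3 (trD_pos hs θ).ne'
  have hd : ∀ θ ∈ uIcc (0 : ℝ) (Real.pi / 2), HasDerivAt (fun θ => (8 * s ^ 2)⁻¹ * trA s θ +
      (4 * (1 - s ^ 2))⁻¹ * (Real.sin θ * Real.cos θ / trD s θ ^ 2) -
      (1 + s ^ 2) * (8 * s ^ 2 * (1 - s ^ 2))⁻¹ * (Real.sin θ * Real.cos θ / trD s θ))
      (Real.sin θ ^ 2 * Real.cos θ ^ 2 / trD s θ ^ 3) θ := by
    intro θ _
    have hD := trD_pos hs θ
    have h1 := (((hasDeriv_A hs θ).const_mul ((8 * s ^ 2)⁻¹)).add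
      ((hasDeriv_scD2 hs hs1 θ).const_mul ((4 * (1 - s ^ 2))⁻¹))).sub
      ((hasDeriv_scD hs hs1 θ).const_mul ((1 + s ^ 2) * (8 * s ^ 2 * (1 - s ^ 2))⁻¹))
    refine h1.congr_deriv ?_
    have h3 := Real.sin_sq_add_cos_sq θ
    have h6 : trD s θ = Real.cos θ ^ 2 + s ^ 2 * Real.sin θ ^ 2 := rfl
    have hDne := hD.ne'
    have hsne := hs.ne'
    generalize trD s θ = D at *
    generalize Real.sin θ = S at *
    generalize Real.cos θ = C at *
    have h7 : C ^ 2 = (1 - s ^ 2)⁻¹ * (D - s ^ 2) := by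
      field_simp
      linear_combination (-s ^ 2) * h3 - h6
    have h8 : S ^ 2 = (1 - s ^ 2)⁻¹ * (1 - D) := by
      field_simp
      linear_combination h6 + h3
    rw [h7, h8]
    field_simp
    ring
  have h1 := intervalIntegral.integral_eq_sub_of_hasDerivAt hd (ii_of_cont hc 0 (Real.pi / 2))
  refine h1.trans ?_
  rw [trA_pi, trA_zero, Real.cos_pi_div_two, Real.sin_zero]
  have hsne := hs.ne'
  field_simp
  ring

/-! ### the substitution `c = sin θ` -/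

private theorem sub_sin {g : ℝ → ℝ} (hg : ContinuousOn g (Icc 0 1)) :
    ∫ θ in (0 : ℝ)..(Real.pi / 2), g (Real.sin θ) * Real.cos θ = ∫ c in (0 : ℝ)..1, g c := by
  have hpi : (0 : ℝ) ≤ Real.pi / 2 := by positivity
  have h1 := intervalIntegral.integral_comp_mul_deriv' (a := 0) (b := Real.pi / 2)
    (f := Real.sin) (f' := Real.cos) (g := g) (fun x _ => Real.hasDerivAt_sin x)
    Real.continuous_cos.continuousOn (by
      refine hg.mono ?_
      rintro _ ⟨θ, hθ, rfl⟩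
      rw [uIcc_of_le hpi] at hθ
      exact ⟨Real.sin_nonneg_of_nonneg_of_le_pi hθ.1 (by linarith [hθ.2, Real.pi_pos]),
        Real.sin_le_one θ⟩)
  rw [Real.sin_zero, Real.sin_pi_div_two] at h1
  exact h1

private theorem sqrt_cos {θ : ℝ} (h0 : 0 ≤ θ) (h1 : θ ≤ Real.pi / 2) :
    √(1 - Real.sin θ ^ 2) = Real.cos θ := by
  rw [← Real.cos_sq']
  exact Real.sqrt_sq (Real.cos_nonneg_of_neg_pi_div_two_le_of_le (by linarith) h1)

theorem int_c_one {T s : ℝ} (hs : 0 < s) (hs1 : s < 1) (hT : T ^ 2 = 1 - s ^ 2) :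
    ∫ c in (0 : ℝ)..1, (1 - c ^ 2) * √(1 - c ^ 2) / (1 - T ^ 2 * c ^ 2)
      = Real.pi / 4 * ((1 + 2 * s) / (1 + s) ^ 2) := by
  have hpi : (0 : ℝ) ≤ Real.pi / 2 := by positivity
  rw [← int_cos_four hs hs1, ← sub_sin]
  · refine intervalIntegral.integral_congr fun θ hθ => ?_
    rw [uIcc_of_le hpi] at hθ
    have h1 := sqrt_cos hθ.1 hθ.2
    have h2 := Real.sin_sq_add_cos_sq θ
    have h3 : 1 - T ^ 2 * Real.sin θ ^ 2 = Real.cos θ ^ 2 + s ^ 2 * Real.sin θ ^ 2 := by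
      rw [hT]
      linear_combination -h2
    have h4 : 1 - Real.sin θ ^ 2 = Real.cos θ ^ 2 := by linear_combination -h2
    rw [h1, h3, h4]
    ring
  · refine ContinuousOn.div (by fun_prop) (by fun_prop) fun c hc => ?_
    have h1 : c ^ 2 ≤ 1 := pow_le_one₀ hc.1 hc.2
    have h2 : 0 ≤ T ^ 2 := sq_nonneg T
    have h3 : 0 < s ^ 2 := by positivity
    nlinarith

theorem int_c_three {T s : ℝ} (hs : 0 < s) (hs1 : s < 1) (hT : T ^ 2 = 1 - s ^ 2) :
    ∫ c in (0 : ℝ)..1, c ^ 2 * √(1 - c ^ 2) / (1 - T ^ 2 * c ^ 2) ^ 3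
      = Real.pi / (16 * s ^ 3) := by
  have hpi : (0 : ℝ) ≤ Real.pi / 2 := by positivity
  rw [← int_sin_cos hs hs1, ← sub_sin]
  · refine intervalIntegral.integral_congr fun θ hθ => ?_
    rw [uIcc_of_le hpi] at hθ
    have h1 := sqrt_cos hθ.1 hθ.2
    have h2 := Real.sin_sq_add_cos_sq θ
    have h3 : 1 - T ^ 2 * Real.sin θ ^ 2 = Real.cos θ ^ 2 + s ^ 2 * Real.sin θ ^ 2 := by
      rw [hT]
      linear_combination -h2
    rw [h1, h3]
    ring
  · refine ContinuousOn.div (by fun_prop) (by fun_prop) fun c hc => ?_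
    have h1 : c ^ 2 ≤ 1 := pow_le_one₀ hc.1 hc.2
    have h2 : 0 ≤ T ^ 2 := sq_nonneg T
    have h3 : 0 < s ^ 2 := by positivity
    exact pow_ne_zero 3 (by nlinarith)

end Vale.Agent.Lib.P219
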