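import Mathlib.Analysis.SpecialFunctions.Artanh
import Mathlib.Analysis.SpecialFunctions.Log.Deriv
import Mathlib.Analysis.SpecialFunctions.Sqrt
import Mathlib.Analysis.SpecialFunctions.Trigonometric.DerivHyp
import Mathlib.Tactic.NormNum.RealSqrt
import Vale.Agent.Lib.P219.K.Fin.Trig

/-!
# P219: chord and area integrals of the model ball (n = 4)

`rch R c = 2 artanh (c tanh R)` is the length of the chord that makes the angle `arccos c` with the
normal.  With `x = c T`, `T = tanh R`, `s = 1/cosh R`: `sinh (rch R c) = 2 x/(1-x²)`,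
`cosh (rch R c) = (1+x²)/(1-x²)`, `tanh (rch R c / 2) = x`, `d/dc rch R c = 2 T/(1 - T² c²) =
sinh (rch R c) / c`.

`int_chord`: integrate by parts with `-(1-c²)^{3/2}/3`, then `int_c_one`;
`∫_0^R sinh³ = (cosh³ R - 3 cosh R + 2)/3`, `(1 - 3 s² + 2 s³) = (1-s)² (1+2s)`, `T² = (1-s)(1+s)`.
`int_area`: `int_c_three`.
-/

namespace Vale.Agent.Lib.P219

open MeasureTheory Set Filter Topology

/-- length of the chord of the ball of radius `R` with angle `arccos c` to the normal -/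
noncomputable def rch (R c : ℝ) : ℝ := 2 * Real.artanh (Real.tanh R * c)

private theorem Chord_hasDerivAt_artanh {x : ℝ} (hx : x ∈ Ioo (-1 : ℝ) 1) :
    HasDerivAt Real.artanh (1 / (1 - x ^ 2)) x := by
  have h1 : (0 : ℝ) < 1 + x := by linarith [hx.1]
  have h2 : (0 : ℝ) < 1 - x := by linarith [hx.2]
  have h3 : HasDerivAt (fun y : ℝ => 1 / 2 * (Real.log (1 + y) - Real.log (1 - y)))
      (1 / 2 * (1 / (1 + x) - (-1) / (1 - x))) x := by
    have ha : HasDerivAt (fun y : ℝ => 1 + y) 1 x := (hasDerivAt_id x).const_add 1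
    have hb : HasDerivAt (fun y : ℝ => 1 - y) (-1) x := (hasDerivAt_id x).const_sub 1
    exact ((ha.log h1.ne').sub (hb.log h2.ne')).const_mul _
  have h4 : 1 / 2 * (1 / (1 + x) - (-1) / (1 - x)) = 1 / (1 - x ^ 2) := by
    have h5 : 1 - x ^ 2 = (1 + x) * (1 - x) := by ring
    rw [h5]
    field_simp
    ring
  rw [h4] at h3
  refine h3.congr_of_eventuallyEq ?_
  filter_upwards [Ioo_mem_nhds hx.1 hx.2] with y hy
  rw [Real.artanh_eq_half_log ⟨hy.1.le, hy.2.le⟩,
    Real.log_div (by linarith [hy.1]) (by linarith [hy.2])]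

private theorem Chord_tanh_pos {R : ℝ} (hR : 0 < R) : 0 < Real.tanh R := by
  rw [Real.tanh_eq_sinh_div_cosh]
  exact div_pos (Real.sinh_pos_iff.2 hR) (Real.cosh_pos R)

private theorem Chord_mem {R c : ℝ} (hR : 0 < R) (hc : 0 ≤ c) (hc1 : c ≤ 1) :
    Real.tanh R * c ∈ Ioo (-1 : ℝ) 1 := by
  have h1 := Chord_tanh_pos hR
  have h2 := Real.tanh_lt_one R
  have h3 : Real.tanh R * c ≤ Real.tanh R * 1 := mul_le_mul_of_nonneg_left hc1 h1.le
  have h4 : 0 ≤ Real.tanh R * c := mul_nonneg h1.le hc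
  constructor <;> linarith

theorem rch_pos {R c : ℝ} (hR : 0 < R) (hc : 0 < c) (hc1 : c ≤ 1) : 0 < rch R c := by
  unfold rch
  have h := Real.artanh_pos (x := Real.tanh R * c)
    ⟨mul_pos (Chord_tanh_pos hR) hc, (Chord_mem hR hc.le hc1).2⟩
  linarith

theorem rch_one {R : ℝ} : rch R 1 = 2 * R := by
  unfold rch
  rw [mul_one, Real.artanh_tanh]

theorem continuousOn_rch {R : ℝ} (hR : 0 < R) : ContinuousOn (rch R) (Icc 0 1) := by
  intro c hc
  have h1 := (Chord_hasDerivAt_artanh (Chord_mem hR hc.1 hc.2)).continuousAt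
  have h2 : ContinuousAt (fun c : ℝ => Real.tanh R * c) c := by fun_prop
  have h3 : ContinuousAt (fun c : ℝ => Real.artanh (Real.tanh R * c)) c :=
    ContinuousAt.comp (f := fun c : ℝ => Real.tanh R * c) h1 h2
  exact (h3.const_mul 2).continuousWithinAt

theorem tanh_half_rch {R c : ℝ} (hR : 0 < R) (hc : 0 ≤ c) (hc1 : c ≤ 1) :
    Real.tanh (rch R c / 2) = Real.tanh R * c := by
  unfold rch
  rw [mul_div_cancel_left₀ _ (two_ne_zero), Real.tanh_artanh (Chord_mem hR hc hc1)]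

private theorem Chord_one_sub {R c : ℝ} (hR : 0 < R) (hc : 0 ≤ c) (hc1 : c ≤ 1) :
    0 < 1 - (Real.tanh R * c) ^ 2 := by
  have h := Chord_mem hR hc hc1
  have h1 : 1 - (Real.tanh R * c) ^ 2 = (1 - Real.tanh R * c) * (1 + Real.tanh R * c) := by ring
  rw [h1]
  exact mul_pos (by linarith [h.2]) (by linarith [h.1])

theorem sinh_rch {R c : ℝ} (hR : 0 < R) (hc : 0 ≤ c) (hc1 : c ≤ 1) :
    Real.sinh (rch R c) = 2 * (Real.tanh R * c) / (1 - (Real.tanh R * c) ^ 2) := by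
  unfold rch
  have h := Chord_mem hR hc hc1
  have h1 := Chord_one_sub hR hc hc1
  rw [Real.sinh_two_mul, Real.sinh_artanh h, Real.cosh_artanh h]
  have h2 : √(1 - (Real.tanh R * c) ^ 2) ^ 2 = 1 - (Real.tanh R * c) ^ 2 := Real.sq_sqrt h1.le
  have h3 : 0 < √(1 - (Real.tanh R * c) ^ 2) := Real.sqrt_pos.2 h1
  calc 2 * (Real.tanh R * c / √(1 - (Real.tanh R * c) ^ 2)) * (1 / √(1 - (Real.tanh R * c) ^ 2))
      = 2 * (Real.tanh R * c) / √(1 - (Real.tanh R * c) ^ 2) ^ 2 := by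
        field_simp
    _ = _ := by rw [h2]

theorem hasDerivAt_rch {R c : ℝ} (hR : 0 < R) (hc : 0 < c) (hc1 : c < 1) :
    HasDerivAt (rch R) (Real.sinh (rch R c) / c) c := by
  have h1 := Chord_hasDerivAt_artanh (Chord_mem hR hc.le hc1.le)
  have h2 : HasDerivAt (fun c : ℝ => Real.tanh R * c) (Real.tanh R * 1) c :=
    (hasDerivAt_id c).const_mul _
  have h3 := (HasDerivAt.comp c (h₂ := Real.artanh) (h := fun c : ℝ => Real.tanh R * c)
    h1 h2).const_mul 2
  have h4 : 2 * (1 / (1 - (Real.tanh R * c) ^ 2) * (Real.tanh R * 1)) =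
      Real.sinh (rch R c) / c := by
    rw [sinh_rch hR hc.le hc1.le]
    have h5 := (Chord_one_sub hR hc.le hc1.le).ne'
    field_simp
  rw [h4] at h3
  exact h3

/-- the data of the model: `s = 1 / cosh R` -/
private theorem Chord_s {R : ℝ} (hR : 0 < R) :
    0 < 1 / Real.cosh R ∧ 1 / Real.cosh R < 1 ∧ Real.tanh R ^ 2 = 1 - (1 / Real.cosh R) ^ 2 ∧
      Real.sinh R = Real.tanh R / (1 / Real.cosh R) := by
  have h1 := Real.cosh_pos R
  have h2 : 1 < Real.cosh R := Real.one_lt_cosh.2 hR.ne'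
  refine ⟨by positivity, by rw [div_lt_one h1]; exact h2, ?_, ?_⟩
  · rw [Real.tanh_eq_sinh_div_cosh, div_pow, div_pow, one_pow, Real.cosh_sq]
    field_simp
    ring
  · rw [Real.tanh_eq_sinh_div_cosh]
    field_simp

private theorem Chord_int_sinh (R : ℝ) : ∫ t in (0 : ℝ)..R, Real.sinh t ^ 3 =
    (Real.cosh R ^ 3 - 3 * Real.cosh R + 2) / 3 := by
  have h1 : ∀ x ∈ uIcc 0 R, HasDerivAt (fun t => (Real.cosh t ^ 3 - 3 * Real.cosh t) / 3)
      (Real.sinh x ^ 3) x := by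
    intro x _
    have h2 := ((Real.hasDerivAt_cosh x).pow 3).sub ((Real.hasDerivAt_cosh x).const_mul 3)
    have h3 := h2.div_const 3
    have h4 : (((3 : ℕ) : ℝ) * Real.cosh x ^ (3 - 1) * Real.sinh x - 3 * Real.sinh x) / 3 =
        Real.sinh x ^ 3 := by
      have h5 : Real.sinh x ^ 3 = Real.sinh x * Real.sinh x ^ 2 := by ring
      rw [h5, Real.sinh_sq]
      push_cast
      ring
    rw [h4] at h3
    exact h3
  rw [intervalIntegral.integral_eq_sub_of_hasDerivAt h1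
    ((Real.continuous_sinh.pow 3).intervalIntegrable _ _), Real.cosh_zero]
  ring

private theorem Chord_hasDerivAt_v {c : ℝ} (hc : -1 < c) (hc1 : c < 1) :
    HasDerivAt (fun c : ℝ => -((1 - c ^ 2) * √(1 - c ^ 2)) / 3) (c * √(1 - c ^ 2)) c := by
  have h0 : 0 < 1 - c ^ 2 := by nlinarith
  have h1 : HasDerivAt (fun c : ℝ => 1 - c ^ 2) (-(2 * c)) c := by
    have h := (hasDerivAt_pow 2 c).const_sub 1
    have e : -(((2 : ℕ) : ℝ) * c ^ (2 - 1)) = -(2 * c) := by
      push_cast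
      ring
    rw [e] at h
    exact h
  have h2 := h1.sqrt h0.ne'
  have h3 := ((h1.mul h2).neg).div_const 3
  have h4 : -(-(2 * c) * √(1 - c ^ 2) + (1 - c ^ 2) * (-(2 * c) / (2 * √(1 - c ^ 2)))) / 3 =
      c * √(1 - c ^ 2) := by
    have h5 : 0 < √(1 - c ^ 2) := Real.sqrt_pos.2 h0
    have h6 : (1 - c ^ 2) = √(1 - c ^ 2) ^ 2 := (Real.sq_sqrt h0.le).symm
    have h7 : (1 - c ^ 2) * (-(2 * c) / (2 * √(1 - c ^ 2))) = -(c * √(1 - c ^ 2)) := by
      rw [mul_div_assoc', div_eq_iff (by positivity)]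
      nth_rewrite 1 [h6]
      ring
    rw [h7]
    ring
  rw [h4] at h3
  exact h3

theorem int_chord {R : ℝ} (hR : 0 < R) :
    ∫ c in (0 : ℝ)..1, c * rch R c * √(1 - c ^ 2)
      = Real.pi / 2 * (∫ t in (0 : ℝ)..R, Real.sinh t ^ 3) / Real.sinh R ^ 3 := by
  obtain ⟨hs, hs1, hT, hsinh⟩ := Chord_s hR
  have hcosh : Real.cosh R = 1 / (1 / Real.cosh R) := by rw [one_div_one_div]
  have hTp := Chord_tanh_pos hR
  set T := Real.tanh R with hTdef
  set s := 1 / Real.cosh R with hsdef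
  have e01 : uIcc (0 : ℝ) 1 = Icc 0 1 := uIcc_of_le zero_le_one
  have hcu' : ContinuousOn (fun c : ℝ => 2 * T / (1 - (T * c) ^ 2)) (Icc 0 1) := by
    refine ContinuousOn.div continuousOn_const (by fun_prop) fun c hc => ?_
    exact (Chord_one_sub hR hc.1 hc.2).ne'
  have hcv' : Continuous (fun c : ℝ => c * √(1 - c ^ 2)) := by fun_prop
  have hcv : Continuous (fun c : ℝ => -((1 - c ^ 2) * √(1 - c ^ 2)) / 3) := by fun_prop
  have hparts := intervalIntegral.integral_mul_deriv_eq_deriv_mul_of_hasDerivAt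
    (a := 0) (b := 1) (u := rch R) (v := fun c : ℝ => -((1 - c ^ 2) * √(1 - c ^ 2)) / 3)
    (u' := fun c : ℝ => 2 * T / (1 - (T * c) ^ 2)) (v' := fun c : ℝ => c * √(1 - c ^ 2))
    (by rw [e01]; exact continuousOn_rch hR) hcv.continuousOn
    (by
      intro c hc
      rw [min_eq_left zero_le_one, max_eq_right zero_le_one] at hc
      have h := hasDerivAt_rch hR hc.1 hc.2
      rw [sinh_rch hR hc.1.le hc.2.le] at h
      have h1 : 2 * (Real.tanh R * c) / (1 - (Real.tanh R * c) ^ 2) / c =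
          2 * T / (1 - (T * c) ^ 2) := by
        have h5 := (Chord_one_sub hR hc.1.le hc.2.le).ne'
        have h6 := hc.1.ne'
        rw [← hTdef] at h5 ⊢
        field_simp
      rw [h1] at h
      exact h)
    (by
      intro c hc
      rw [min_eq_left zero_le_one, max_eq_right zero_le_one] at hc
      exact Chord_hasDerivAt_v (by linarith [hc.1]) hc.2)
    (by
      refine ContinuousOn.intervalIntegrable ?_
      rw [e01]
      exact hcu')
    (hcv'.intervalIntegrable _ _)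
  have h0 : rch R 0 = 0 := by
    unfold rch
    rw [mul_zero, Real.artanh_zero, mul_zero]
  have hI : ∫ c in (0 : ℝ)..1, 2 * T / (1 - (T * c) ^ 2) * (-((1 - c ^ 2) * √(1 - c ^ 2)) / 3) =
      -(2 * T / 3) * (Real.pi / 4 * ((1 + 2 * s) / (1 + s) ^ 2)) := by
    rw [← int_c_one hs hs1 hT, ← intervalIntegral.integral_const_mul]
    refine intervalIntegral.integral_congr fun c hc => ?_
    rw [e01] at hc
    have h5 := (Chord_one_sub hR hc.1 hc.2).ne'
    rw [← hTdef] at h5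
    have h6 : 1 - T ^ 2 * c ^ 2 = 1 - (T * c) ^ 2 := by ring
    change 2 * T / (1 - (T * c) ^ 2) * (-((1 - c ^ 2) * √(1 - c ^ 2)) / 3) =
      -(2 * T / 3) * ((1 - c ^ 2) * √(1 - c ^ 2) / (1 - T ^ 2 * c ^ 2))
    rw [h6]
    field_simp
  have hL : ∫ c in (0 : ℝ)..1, c * rch R c * √(1 - c ^ 2) =
      ∫ c in (0 : ℝ)..1, rch R c * (c * √(1 - c ^ 2)) := by
    refine intervalIntegral.integral_congr fun c _ => ?_
    ring
  rw [hL, hparts, hI, h0, Chord_int_sinh, hsinh, hcosh]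
  have h1s : 0 < 1 - s := by linarith
  have h1s' : 0 < 1 + s := by linarith
  have hT4 : T ^ 4 = ((1 - s) * (1 + s)) ^ 2 := by
    have : T ^ 4 = (T ^ 2) ^ 2 := by ring
    rw [this, hT]
    ring
  have e1 : ((1 : ℝ) - 1 ^ 2) = 0 := by norm_num
  have e2 : Real.pi / 2 * (((1 / s) ^ 3 - 3 * (1 / s) + 2) / 3) / (T / s) ^ 3 =
      T * (Real.pi / 6 * ((1 - s) ^ 2 * (1 + 2 * s)) / T ^ 4) := by
    field_simp
    ring
  rw [e1, e2, hT4]
  field_simp
  ring

theorem int_area {R : ℝ} (hR : 0 < R) :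
    ∫ c in (0 : ℝ)..1, Real.sinh (rch R c) ^ 3 / c * √(1 - c ^ 2)
      = Real.pi / 2 * Real.sinh R ^ 3 := by
  obtain ⟨hs, hs1, hT, hsinh⟩ := Chord_s hR
  have hI : ∫ c in (0 : ℝ)..1, Real.sinh (rch R c) ^ 3 / c * √(1 - c ^ 2) =
      8 * Real.tanh R ^ 3 * ∫ c in (0 : ℝ)..1, c ^ 2 * √(1 - c ^ 2) /
        (1 - Real.tanh R ^ 2 * c ^ 2) ^ 3 := by
    rw [← intervalIntegral.integral_const_mul]
    refine intervalIntegral.integral_congr fun c hc => ?_
    rw [uIcc_of_le zero_le_one] at hc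
    have h5 := (Chord_one_sub hR hc.1 hc.2).ne'
    have h6 : 1 - Real.tanh R ^ 2 * c ^ 2 = 1 - (Real.tanh R * c) ^ 2 := by ring
    change Real.sinh (rch R c) ^ 3 / c * √(1 - c ^ 2) = 8 * Real.tanh R ^ 3 *
      (c ^ 2 * √(1 - c ^ 2) / (1 - Real.tanh R ^ 2 * c ^ 2) ^ 3)
    rw [h6, sinh_rch hR hc.1 hc.2]
    rcases hc.1.eq_or_lt with h | h
    · rw [← h]
      simp
    · have h7 := h.ne'
      field_simp
      ring
  rw [hI, int_c_three hs hs1 hT, hsinh]
  field_simp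
  ring

end Vale.Agent.Lib.P219
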