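import Mathlib.Analysis.Calculus.Deriv.Prod
import Vale.Agent.Lib.P219.K.Fin.Chord

/-!
# P219: the divergence identity on the model sphere (n = 4)

`C r = tanh (r/2) / tanh R`, so `C' = C / sinh r` and `C (coth r + 1/sinh r) = coth R`.  Along the
diagonal `c = c' = C r`, with `e r = η r (C r)`, `e' = ηr + ηc C / sinh r`:
`G r := ηr (1-C²) + η coth r (2 + C²) + C ηc (1-C²)/sinh r - 3 coth R C η` satisfies
`(sinh² r · e r · (1-C²)^{3/2})' = sinh² r √(1-C²) G r`.  As a function of `c = C r` (`r = rch R c`,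
`dr/dc = sinh r / c`) the primitive `sinh² (rch R c) η (rch R c) c (1-c²)^{3/2}` tends to `0` at `c → 0`
and at `c → 1`; use `intervalIntegral.integral_eq_sub_of_hasDerivAt_of_tendsto` or the FTC for
integrable derivatives on the open interval.
-/

namespace Vale.Agent.Lib.P219

open MeasureTheory Set Filter Topology

/-- the divergence kernel on the diagonal, as a function of `c` -/
noncomputable def gdiag (R : ℝ) (η ηr ηc : ℝ → ℝ → ℝ) (c : ℝ) : ℝ :=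
  ηr (rch R c) c * (1 - c ^ 2)
    + η (rch R c) c * (Real.cosh (rch R c) / Real.sinh (rch R c)) * (2 + c ^ 2)
    + c * ηc (rch R c) c * (1 - c ^ 2) / Real.sinh (rch R c)
    - 3 * (Real.cosh R / Real.sinh R) * c * η (rch R c) c

private theorem Div_coth {R c : ℝ} (hR : 0 < R) (hc : 0 < c) (hc1 : c < 1) :
    c * (Real.cosh (rch R c) + 1) / Real.sinh (rch R c) = Real.cosh R / Real.sinh R := by
  have hr := rch_pos hR hc hc1.le
  have ht := tanh_half_rch hR hc.le hc1.le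
  set r := rch R c with hrdef
  have hs2 : 0 < Real.sinh (r / 2) := Real.sinh_pos_iff.2 (by linarith)
  have hc2 : 0 < Real.cosh (r / 2) := Real.cosh_pos _
  have hsR : 0 < Real.sinh R := Real.sinh_pos_iff.2 hR
  have hcR : 0 < Real.cosh R := Real.cosh_pos _
  have e1 : Real.sinh r = 2 * Real.sinh (r / 2) * Real.cosh (r / 2) := by
    rw [← Real.sinh_two_mul]
    congr 1
    ring
  have e2 : Real.cosh r + 1 = 2 * Real.cosh (r / 2) ^ 2 := by
    have h1 : Real.cosh r = Real.cosh (r / 2) ^ 2 + Real.sinh (r / 2) ^ 2 := by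
      rw [← Real.cosh_two_mul]
      congr 1
      ring
    have h2 := Real.cosh_sq (r / 2)
    linarith
  rw [Real.tanh_eq_sinh_div_cosh, Real.tanh_eq_sinh_div_cosh] at ht
  rw [e1, e2]
  rw [div_eq_iff hc2.ne'] at ht
  rw [ht]
  field_simp

private theorem Div_chain {R : ℝ} (hR : 0 < R) {η ηr ηc : ℝ → ℝ → ℝ}
    (smooth : ContDiffOn ℝ 1 (fun p : ℝ × ℝ => η p.1 p.2) (Ioi 0 ×ˢ univ))
    (deriv_r : ∀ r c, 0 < r → HasDerivAt (fun s => η s c) (ηr r c) r)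
    (deriv_c : ∀ r c, 0 < r → HasDerivAt (fun s => η r s) (ηc r c) c)
    {c : ℝ} (hc : 0 < c) (hc1 : c < 1) :
    HasDerivAt (fun s => η (rch R s) s)
      (ηr (rch R c) c * (Real.sinh (rch R c) / c) + ηc (rch R c) c) c := by
  have hr := rch_pos hR hc hc1.le
  have hopen : IsOpen ((Ioi (0 : ℝ)) ×ˢ (univ : Set ℝ)) := isOpen_Ioi.prod isOpen_univ
  have hmem : ((rch R c, c) : ℝ × ℝ) ∈ (Ioi (0 : ℝ)) ×ˢ (univ : Set ℝ) := ⟨hr, mem_univ _⟩
  have hF : HasFDerivAt (fun p : ℝ × ℝ => η p.1 p.2)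
      (fderiv ℝ (fun p : ℝ × ℝ => η p.1 p.2) (rch R c, c)) (rch R c, c) :=
    ((smooth.contDiffAt (hopen.mem_nhds hmem)).differentiableAt one_ne_zero).hasFDerivAt
  set L := fderiv ℝ (fun p : ℝ × ℝ => η p.1 p.2) (rch R c, c) with hL
  have h1 : L (1, 0) = ηr (rch R c) c := by
    have h2 : HasDerivAt (fun s : ℝ => ((s, c) : ℝ × ℝ)) (1, 0) (rch R c) :=
      (hasDerivAt_id _).prodMk (hasDerivAt_const _ _)
    have h3 := hF.comp_hasDerivAt (rch R c) h2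
    exact h3.unique (deriv_r _ _ hr)
  have h2 : L (0, 1) = ηc (rch R c) c := by
    have h2 : HasDerivAt (fun s : ℝ => ((rch R c, s) : ℝ × ℝ)) (0, 1) c :=
      (hasDerivAt_const _ _).prodMk (hasDerivAt_id _)
    have h3 := hF.comp_hasDerivAt c h2
    exact h3.unique (deriv_c _ _ hr)
  have h3 : HasDerivAt (fun s : ℝ => ((rch R s, s) : ℝ × ℝ)) (Real.sinh (rch R c) / c, 1) c :=
    (hasDerivAt_rch hR hc hc1).prodMk (hasDerivAt_id _)
  have h4 := HasFDerivAt.comp_hasDerivAt (f := fun s : ℝ => ((rch R s, s) : ℝ × ℝ)) c hF h3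
  refine h4.congr_deriv ?_
  have h5 : ((Real.sinh (rch R c) / c, 1) : ℝ × ℝ) =
      (Real.sinh (rch R c) / c) • ((1, 0) : ℝ × ℝ) + ((0, 1) : ℝ × ℝ) := by
    ext <;> simp
  rw [h5, map_add, map_smul, h1, h2, smul_eq_mul]
  ring

private theorem Div_prim {R : ℝ} (hR : 0 < R) {η ηr ηc : ℝ → ℝ → ℝ}
    (smooth : ContDiffOn ℝ 1 (fun p : ℝ × ℝ => η p.1 p.2) (Ioi 0 ×ˢ univ))
    (deriv_r : ∀ r c, 0 < r → HasDerivAt (fun s => η s c) (ηr r c) r)
    (deriv_c : ∀ r c, 0 < r → HasDerivAt (fun s => η r s) (ηc r c) c)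
    {c : ℝ} (hc : 0 < c) (hc1 : c < 1) :
    HasDerivAt (fun s => Real.sinh (rch R s) ^ 2 * η (rch R s) s * ((1 - s ^ 2) * √(1 - s ^ 2)))
      (gdiag R η ηr ηc c * (Real.sinh (rch R c) ^ 3 / c) * √(1 - c ^ 2)) c := by
  have hr := rch_pos hR hc hc1.le
  have hs : 0 < Real.sinh (rch R c) := Real.sinh_pos_iff.2 hr
  have h1c : 0 < 1 - c ^ 2 := by nlinarith
  have hq : 0 < √(1 - c ^ 2) := Real.sqrt_pos.2 h1c
  have hq2 : √(1 - c ^ 2) ^ 2 = 1 - c ^ 2 := Real.sq_sqrt h1c.le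
  have h1 : HasDerivAt (fun s => Real.sinh (rch R s) ^ 2)
      (2 * Real.sinh (rch R c) * (Real.cosh (rch R c) * (Real.sinh (rch R c) / c))) c := by
    have h2 := ((hasDerivAt_rch hR hc hc1).sinh).pow 2
    refine h2.congr_deriv ?_
    norm_num
  have h2 := Div_chain hR smooth deriv_r deriv_c hc hc1
  have h3 : HasDerivAt (fun s : ℝ => 1 - s ^ 2) (-(2 * c)) c := by
    have h4 := (hasDerivAt_pow 2 c).const_sub 1
    refine h4.congr_deriv ?_
    norm_num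
  have h4 : HasDerivAt (fun s : ℝ => √(1 - s ^ 2)) (-(2 * c) / (2 * √(1 - c ^ 2))) c :=
    h3.sqrt h1c.ne'
  have h5 := (h1.mul h2).mul (h3.mul h4)
  refine h5.congr_deriv ?_
  simp only [Pi.mul_apply]
  have hcoth := Div_coth hR hc hc1
  unfold gdiag
  rw [← hcoth]
  generalize √(1 - c ^ 2) = q at *
  have hq3 : (1 - c ^ 2) = q ^ 2 := hq2.symm
  rw [hq3]
  have hc2 : c ^ 2 = 1 - q ^ 2 := by linarith
  generalize Real.sinh (rch R c) = S at *
  generalize Real.cosh (rch R c) = K at *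
  generalize η (rch R c) c = E at *
  generalize ηr (rch R c) c = Er at *
  generalize ηc (rch R c) c = Ec at *
  field_simp
  rw [hc2]
  ring

theorem int_div {R : ℝ} (hR : 0 < R) {η ηr ηc : ℝ → ℝ → ℝ}
    (smooth : ContDiffOn ℝ 1 (fun p : ℝ × ℝ => η p.1 p.2) (Ioi 0 ×ˢ univ))
    (deriv_r : ∀ r c, 0 < r → HasDerivAt (fun s => η s c) (ηr r c) r)
    (deriv_c : ∀ r c, 0 < r → HasDerivAt (fun s => η r s) (ηc r c) c)
    (h0 : Tendsto (fun c => Real.sinh (rch R c) ^ 2 * η (rch R c) c) (𝓝[>] 0) (𝓝 0))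
    (hint : IntervalIntegrable (fun c => gdiag R η ηr ηc c * (Real.sinh (rch R c) ^ 3 / c)
      * √(1 - c ^ 2)) volume 0 1) :
    ∫ c in (0 : ℝ)..1, gdiag R η ηr ηc c * (Real.sinh (rch R c) ^ 3 / c) * √(1 - c ^ 2) = 0 := by
  have hw : Continuous fun s : ℝ => (1 - s ^ 2) * √(1 - s ^ 2) := by fun_prop
  have ha : Tendsto (fun s => Real.sinh (rch R s) ^ 2 * η (rch R s) s *
      ((1 - s ^ 2) * √(1 - s ^ 2))) (𝓝[>] 0) (𝓝 0) := by
    have h1 : Tendsto (fun s : ℝ => (1 - s ^ 2) * √(1 - s ^ 2)) (𝓝[>] 0)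
        (𝓝 ((1 - 0 ^ 2) * √(1 - 0 ^ 2))) := (hw.tendsto 0).mono_left nhdsWithin_le_nhds
    have h2 := h0.mul h1
    rwa [zero_mul] at h2
  have hb : Tendsto (fun s => Real.sinh (rch R s) ^ 2 * η (rch R s) s *
      ((1 - s ^ 2) * √(1 - s ^ 2))) (𝓝[<] 1) (𝓝 0) := by
    have h1 : Tendsto (fun s : ℝ => (1 - s ^ 2) * √(1 - s ^ 2)) (𝓝[<] 1)
        (𝓝 ((1 - 1 ^ 2) * √(1 - 1 ^ 2))) := (hw.tendsto 1).mono_left nhdsWithin_le_nhds
    have h2 : Tendsto (rch R) (𝓝[<] 1) (𝓝 (rch R 1)) := by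
      have h3 := (continuousOn_rch hR) 1 ⟨zero_le_one, le_rfl⟩
      have h4 : Tendsto (rch R) (𝓝[Ioo 0 1] 1) (𝓝 (rch R 1)) :=
        h3.mono_left (nhdsWithin_mono _ Ioo_subset_Icc_self)
      rwa [nhdsWithin_Ioo_eq_nhdsLT (zero_lt_one)] at h4
    have h3 : Tendsto (fun s : ℝ => ((rch R s, s) : ℝ × ℝ)) (𝓝[<] 1) (𝓝 (rch R 1, 1)) :=
      h2.prodMk_nhds (tendsto_id.mono_left nhdsWithin_le_nhds)
    have hr : 0 < rch R 1 := rch_pos hR one_pos le_rfl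
    have hopen : IsOpen ((Ioi (0 : ℝ)) ×ˢ (univ : Set ℝ)) := isOpen_Ioi.prod isOpen_univ
    have hmem : ((rch R 1, 1) : ℝ × ℝ) ∈ (Ioi (0 : ℝ)) ×ˢ (univ : Set ℝ) := ⟨hr, mem_univ _⟩
    have h4 : ContinuousAt (fun p : ℝ × ℝ => η p.1 p.2) (rch R 1, 1) :=
      (smooth.continuousOn).continuousAt (hopen.mem_nhds hmem)
    have h5 : Tendsto (fun s : ℝ => η (rch R s) s) (𝓝[<] 1) (𝓝 (η (rch R 1) 1)) :=
      h4.tendsto.comp h3
    have h6 : Tendsto (fun s : ℝ => Real.sinh (rch R s) ^ 2) (𝓝[<] 1)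
        (𝓝 (Real.sinh (rch R 1) ^ 2)) := ((Real.continuous_sinh.tendsto _).comp h2).pow 2
    have h7 := (h6.mul h5).mul h1
    simpa using h7
  have key := intervalIntegral.integral_eq_sub_of_hasDerivAt_of_tendsto (zero_lt_one)
    (fun c hc => Div_prim hR smooth deriv_r deriv_c hc.1 hc.2) hint ha hb
  rw [key, sub_zero]

end Vale.Agent.Lib.P219
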