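import Vale.Agent.Lib.P219.K.Fin.Sph4
import Vale.Agent.Lib.P219.K.Fin.Div
import Vale.Agent.Lib.P219.K.Model

/-!
# P219: the field `final` of a certificate (n = 4): equality for the model ball
-/

namespace Vale.Agent.Lib.P219

open MeasureTheory Set Filter Topology

/-- the equality `a A² + K' A = d |S³| V` for the model ball, for every `η` and the `f` defined by
the diagonal -/
theorem final_four {R : ℝ} (hR : 0 < R) {η ηr ηc : ℝ → ℝ → ℝ}
    (smooth : ContDiffOn ℝ 1 (fun p : ℝ × ℝ => η p.1 p.2) (Ioi 0 ×ˢ univ))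
    (deriv_r : ∀ r c, 0 < r → HasDerivAt (fun s => η s c) (ηr r c) r)
    (deriv_c : ∀ r c, 0 < r → HasDerivAt (fun s => η r s) (ηc r c) c)
    (h0 : Tendsto (fun c => Real.sinh (rch R c) ^ 2 * η (rch R c) c) (𝓝[>] 0) (𝓝 0))
    (a d : ℝ) (f : ℝ → ℝ) (hf : ContinuousOn f (Icc 0 1))
    (hfd : ∀ c, 0 < c → c < 1 → f c
      = (d * rch R c - (a + gdiag R η ηr ηc c) * Real.sinh (rch R c) ^ 3 / c ^ 2) / 2)
    (e : Ev 4) (he : ‖e‖ = 1) :
    a * areaM 4 R ^ 2
      + (∫ ω : Metric.sphere (0 : Ev 4) 1, |inner ℝ (ω : Ev 4) e| * f |inner ℝ (ω : Ev 4) e|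
        ∂(volume : Measure (Ev 4)).toSphere) * areaM 4 R = d * ((4 : ℕ) * om 4 * volM 4 R) := by
  have hsR : 0 < Real.sinh R := Real.sinh_pos_iff.2 hR
  have hSph : ∫ ω : Metric.sphere (0 : Ev 4) 1, |inner ℝ (ω : Ev 4) e| * f |inner ℝ (ω : Ev 4) e|
      ∂(volume : Measure (Ev 4)).toSphere = 8 * Real.pi * ∫ c in (0 : ℝ)..1,
        (c * f c) * √(1 - c ^ 2) := by
    exact sphere_abs_four e he (fun c => c * f c) (continuousOn_id.mul hf)
  -- continuity of the pieces on `[0,1]`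
  have hsq : Continuous (fun c : ℝ => √(1 - c ^ 2)) := by fun_prop
  have hrc := continuousOn_rch hR
  have hT0 : 0 < Real.tanh R := by
    rw [Real.tanh_eq_sinh_div_cosh]; exact div_pos hsR (Real.cosh_pos R)
  have hT1 : Real.tanh R < 1 := Real.tanh_lt_one R
  have hden : ∀ c ∈ Icc (0 : ℝ) 1, 0 < 1 - (Real.tanh R * c) ^ 2 := by
    intro c hc
    have h1 : Real.tanh R * c < 1 := by nlinarith [hc.1, hc.2]
    have h2 : 0 ≤ Real.tanh R * c := mul_nonneg hT0.le hc.1
    nlinarith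
  -- `sinh³ / c` extended by continuity
  have hA : IntervalIntegrable (fun c => Real.sinh (rch R c) ^ 3 / c * √(1 - c ^ 2)) volume 0 1 := by
    have hcont : ContinuousOn (fun c => 8 * Real.tanh R ^ 3 * c ^ 2
        / (1 - (Real.tanh R * c) ^ 2) ^ 3 * √(1 - c ^ 2)) (Icc 0 1) := by
      refine ContinuousOn.mul (ContinuousOn.div (by fun_prop) (by fun_prop) fun c hc => ?_)
        hsq.continuousOn
      exact (pow_pos (hden c hc) 3).ne'
    refine (hcont.intervalIntegrable_of_Icc zero_le_one).congr fun c hc => ?_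
    rw [Set.uIoc_of_le zero_le_one] at hc
    rw [sinh_rch hR hc.1.le hc.2]
    have := hc.1.ne'
    have h3 := (hden c ⟨hc.1.le, hc.2⟩).ne'
    field_simp
    ring
  have hcf : IntervalIntegrable (fun c => (c * f c) * √(1 - c ^ 2)) volume 0 1 :=
    ((continuousOn_id.mul hf).mul hsq.continuousOn).intervalIntegrable_of_Icc zero_le_one
  have hcr : IntervalIntegrable (fun c => c * rch R c * √(1 - c ^ 2)) volume 0 1 :=
    ((continuousOn_id.mul hrc).mul hsq.continuousOn).intervalIntegrable_of_Icc zero_le_one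
  have hpt : ∀ c ∈ Ioo (0 : ℝ) 1, gdiag R η ηr ηc c * (Real.sinh (rch R c) ^ 3 / c) * √(1 - c ^ 2)
      = d * (c * rch R c * √(1 - c ^ 2)) - a * (Real.sinh (rch R c) ^ 3 / c * √(1 - c ^ 2))
        - 2 * ((c * f c) * √(1 - c ^ 2)) := by
    intro c hc
    rw [hfd c hc.1 hc.2]
    have := hc.1.ne'
    field_simp
    ring
  have hae : ∀ᵐ c : ℝ, c ∈ Set.uIoc (0 : ℝ) 1 →
      gdiag R η ηr ηc c * (Real.sinh (rch R c) ^ 3 / c) * √(1 - c ^ 2)
      = d * (c * rch R c * √(1 - c ^ 2)) - a * (Real.sinh (rch R c) ^ 3 / c * √(1 - c ^ 2))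
        - 2 * ((c * f c) * √(1 - c ^ 2)) := by
    have h1 : ∀ᵐ c : ℝ, c ≠ 1 := by
      simp [ae_iff]
    filter_upwards [h1] with c hc1 hc
    rw [Set.uIoc_of_le zero_le_one] at hc
    exact hpt c ⟨hc.1, lt_of_le_of_ne hc.2 hc1⟩
  have hRHS : IntervalIntegrable (fun c => d * (c * rch R c * √(1 - c ^ 2))
      - a * (Real.sinh (rch R c) ^ 3 / c * √(1 - c ^ 2)) - 2 * ((c * f c) * √(1 - c ^ 2)))
      volume 0 1 := ((hcr.const_mul d).sub (hA.const_mul a)).sub (hcf.const_mul 2)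
  have hG : IntervalIntegrable (fun c => gdiag R η ηr ηc c * (Real.sinh (rch R c) ^ 3 / c)
      * √(1 - c ^ 2)) volume 0 1 := by
    refine hRHS.congr_ae ?_
    rw [Filter.EventuallyEq, ae_restrict_iff' measurableSet_uIoc]
    filter_upwards [hae] with c hc hc1 using (hc hc1).symm
  have h1 := int_div hR smooth deriv_r deriv_c h0 hG
  rw [intervalIntegral.integral_congr_ae hae,
    intervalIntegral.integral_sub ((hcr.const_mul d).sub (hA.const_mul a)) (hcf.const_mul 2),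
    intervalIntegral.integral_sub (hcr.const_mul d) (hA.const_mul a),
    intervalIntegral.integral_const_mul, intervalIntegral.integral_const_mul,
    intervalIntegral.integral_const_mul, int_chord hR, int_area hR] at h1
  rw [hSph]
  unfold areaM volM
  rw [om_four]
  have e1 : (4 : ℕ) - 1 = 3 := rfl
  rw [e1]
  push_cast
  set I := ∫ c in (0 : ℝ)..1, (c * f c) * √(1 - c ^ 2) with hI
  set v := ∫ t in (0 : ℝ)..R, Real.sinh t ^ 3 with hv
  have h2 : 2 * I = d * (Real.pi / 2 * v / Real.sinh R ^ 3) - a * (Real.pi / 2 * Real.sinh R ^ 3) := by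
    linarith
  have h3 : I = (d * (Real.pi / 2 * v / Real.sinh R ^ 3) - a * (Real.pi / 2 * Real.sinh R ^ 3)) / 2 := by
    linarith
  rw [h3]
  field_simp
  ring

end Vale.Agent.Lib.P219
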