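import Mathlib.Tactic.NormNum.RealSqrt
import Mathlib.Topology.ContinuousMap.Weierstrass

import Vale.Agent.Lib.P219.Ce.SphereAbs

/-!
# P219: integrals over the unit sphere of `ℝ^4`

Both sides are continuous linear functionals of `G ∈ C[0,1]`, so by Weierstrass
(`exists_polynomial_near_of_continuousOn`) it is enough to take `G c = c^k`: both sides satisfy
`I (k+2) = (k+1)/(k+4) I k` (`sphere_moment_abs_rec`), `I 0 = 2 π² = 4 om 4`, `I 1 = 8 π / 3` (as in
`sphere_moment_abs_chord`, copy `sa_formula`).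
-/

namespace Vale.Agent.Lib.P219

open MeasureTheory Set Filter Topology

private theorem s4_gauss_integrable (n : ℕ) :
    Integrable (fun x : Ev n => Real.exp (-(1 / 2) * ‖x‖ ^ 2)) := by
  have h := GaussianFourier.integrable_cexp_neg_mul_sq_norm_add (V := Ev n) (b := (1 / 2 : ℂ))
    (by norm_num) 0 0
  have h2 := h.norm
  refine h2.congr (Eventually.of_forall fun x => ?_)
  simp only [Complex.norm_exp]
  congr 1
  simp [← Complex.ofReal_pow]

private theorem s4_bound (k : ℕ) (s : ℝ) {t : ℝ} (ht : |s| ≤ t) :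
    |(|s| ^ k * Real.exp (-t ^ 2))| ≤
      ((k.factorial : ℝ) * Real.exp (1 / 2)) * Real.exp (-(1 / 2) * t ^ 2) := by
  have h0 : 0 ≤ t := le_trans (abs_nonneg s) ht
  have h1 : |s| ^ k ≤ t ^ k := pow_le_pow_left₀ (abs_nonneg s) ht k
  have h2 : t ^ k ≤ (k.factorial : ℝ) * Real.exp t := by
    have h := Real.pow_div_factorial_le_exp t h0 k
    rw [div_le_iff₀ (by positivity)] at h
    linarith
  have h3 : Real.exp t * Real.exp (-t ^ 2) ≤ Real.exp (1 / 2) * Real.exp (-(1 / 2) * t ^ 2) := by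
    rw [← Real.exp_add, ← Real.exp_add]
    apply Real.exp_le_exp.2
    nlinarith [sq_nonneg (t - 1)]
  rw [abs_mul, abs_pow, abs_abs, abs_of_pos (Real.exp_pos _)]
  calc |s| ^ k * Real.exp (-t ^ 2) ≤ ((k.factorial : ℝ) * Real.exp t) * Real.exp (-t ^ 2) :=
        mul_le_mul_of_nonneg_right (h1.trans h2) (Real.exp_pos _).le
    _ = (k.factorial : ℝ) * (Real.exp t * Real.exp (-t ^ 2)) := by ring
    _ ≤ (k.factorial : ℝ) * (Real.exp (1 / 2) * Real.exp (-(1 / 2) * t ^ 2)) :=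
        mul_le_mul_of_nonneg_left h3 (by positivity)
    _ = _ := by ring

private theorem s4_integrable {n : ℕ} (e : Ev n) (he : ‖e‖ = 1) (k : ℕ) :
    Integrable (fun x : Ev n => |inner ℝ x e| ^ k * Real.exp (-‖x‖ ^ 2)) := by
  have h1 := (s4_gauss_integrable n).const_mul ((k.factorial : ℝ) * Real.exp (1 / 2))
  refine h1.mono' ?_ (Eventually.of_forall fun x => ?_)
  · apply Continuous.aestronglyMeasurable
    fun_prop
  · rw [Real.norm_eq_abs]
    apply s4_bound
    have := abs_real_inner_le_norm x e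
    rwa [he, mul_one] at this

/-- radial integrals -/
private noncomputable def s4R (k : ℕ) : ℝ := ∫ t in Ioi (0 : ℝ), t ^ k * Real.exp (-t ^ 2)

private theorem s4R_eq (k : ℕ) : s4R k = 1 / 2 * Real.Gamma (((k : ℝ) + 1) / 2) := by
  have h := integral_rpow_mul_exp_neg_rpow (p := 2) (q := (k : ℝ)) (by norm_num)
    (lt_of_lt_of_le (by norm_num) (Nat.cast_nonneg k))
  rw [← h]
  unfold s4R
  apply setIntegral_congr_fun measurableSet_Ioi
  intro t _
  simp only
  rw [Real.rpow_natCast, Real.rpow_two]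

private theorem s4_polar {n : ℕ} (hn : 1 ≤ n) (e : Ev n) (he : ‖e‖ = 1) (k : ℕ) :
    ∫ x : Ev n, |inner ℝ x e| ^ k * Real.exp (-‖x‖ ^ 2)
      = (∫ ω : Metric.sphere (0 : Ev n) 1, |inner ℝ (ω : Ev n) e| ^ k
        ∂(volume : Measure (Ev n)).toSphere) * s4R (n - 1 + k) := by
  rw [integral_polar hn _ (s4_integrable e he k), ← integral_mul_const]
  apply integral_congr_ae
  refine Eventually.of_forall fun ω => ?_
  simp only
  unfold s4R
  rw [← integral_const_mul]
  apply setIntegral_congr_fun measurableSet_Ioi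
  intro t ht
  have ht' : (0 : ℝ) < t := ht
  have h1 : ‖t • (ω : Ev n)‖ ^ 2 = t ^ 2 := by
    have h2 : ‖(ω : Ev n)‖ = 1 := by simp
    rw [norm_smul, h2, mul_one, Real.norm_eq_abs, sq_abs]
  simp only
  rw [h1, inner_smul_left, abs_mul, mul_pow, pow_add]
  simp only [conj_trivial]
  rw [abs_of_pos ht']
  ring

/-- the one dimensional factor -/
private theorem s4_one (k : ℕ) :
    ∫ t : ℝ, |t| ^ k * Real.exp (-t ^ 2) = Real.Gamma (((k : ℝ) + 1) / 2) := by
  have h := integral_comp_abs (f := fun t : ℝ => t ^ k * Real.exp (-t ^ 2))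
  simp only [sq_abs] at h
  rw [h]
  have h2 := s4R_eq k
  unfold s4R at h2
  rw [h2]
  ring

private theorem s4_gauss_one : ∫ t : ℝ, Real.exp (-t ^ 2) = √Real.pi := by
  have h := integral_gaussian 1
  simpa using h

/-- the Gaussian integral -/
private theorem s4_gauss {n : ℕ} (hn : 1 ≤ n) (e : Ev n) (he : ‖e‖ = 1) (k : ℕ) :
    ∫ x : Ev n, |inner ℝ x e| ^ k * Real.exp (-‖x‖ ^ 2)
      = Real.Gamma (((k : ℝ) + 1) / 2) * √Real.pi ^ (n - 1) := by
  obtain ⟨m, rfl⟩ : ∃ m, n = m + 1 := ⟨n - 1, by omega⟩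
  obtain ⟨b, hb⟩ : ∃ b : OrthonormalBasis (Fin (m + 1)) ℝ (Ev (m + 1)), b 0 = e := by
    have hv : Orthonormal ℝ (({0} : Set (Fin (m + 1))).domRestrict (fun _ => e)) := by
      refine ⟨fun i => by simpa using he, ?_⟩
      intro i j hij
      exact absurd (Subsingleton.elim i j) hij
    obtain ⟨b, hb⟩ := hv.exists_orthonormalBasis_extension_of_card_eq (by simp)
    exact ⟨b, hb 0 (by simp)⟩
  have h1 : ∫ x : Ev (m + 1), |inner ℝ x e| ^ k * Real.exp (-‖x‖ ^ 2)
      = ∫ y : Ev (m + 1), |y 0| ^ k * Real.exp (-‖y‖ ^ 2) := by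
    have h0 := b.measurePreserving_repr.integral_comp
      b.repr.toHomeomorph.measurableEmbedding
      (fun y : Ev (m + 1) => |y 0| ^ k * Real.exp (-‖y‖ ^ 2))
    rw [← h0]
    apply integral_congr_ae
    refine Eventually.of_forall fun x => ?_
    simp only
    rw [b.repr_apply_apply, hb, b.repr.norm_map, real_inner_comm]
  have h2 : ∫ y : Ev (m + 1), |y 0| ^ k * Real.exp (-‖y‖ ^ 2)
      = ∫ z : Fin (m + 1) → ℝ, ∏ i, (if i = 0 then (fun t : ℝ => |t| ^ k * Real.exp (-t ^ 2))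
        else (fun t : ℝ => Real.exp (-t ^ 2))) (z i) := by
    have h0 := (PiLp.volume_preserving_toLp (Fin (m + 1))).integral_comp
      (MeasurableEquiv.toLp 2 (Fin (m + 1) → ℝ)).measurableEmbedding
      (fun y : Ev (m + 1) => |y 0| ^ k * Real.exp (-‖y‖ ^ 2))
    rw [← h0]
    apply integral_congr_ae
    refine Eventually.of_forall fun z => ?_
    simp only
    rw [Fin.prod_univ_succ, EuclideanSpace.norm_sq_eq, Fin.sum_univ_succ, neg_add, Real.exp_add,
      if_pos rfl]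
    simp only [Fin.succ_ne_zero, if_false, Real.norm_eq_abs, sq_abs]
    rw [← Real.exp_sum, Finset.sum_neg_distrib]
    ring
  rw [h1, h2, integral_fintype_prod_volume_eq_prod, Fin.prod_univ_succ, if_pos rfl]
  simp only [Fin.succ_ne_zero, if_false]
  rw [s4_one, s4_gauss_one, Finset.prod_const, Finset.card_univ, Fintype.card_fin]
  simp

/-- closed formula for the absolute moments -/
private theorem s4_formula {n : ℕ} (hn : 1 ≤ n) (e : Ev n) (he : ‖e‖ = 1) (k : ℕ) :
    (∫ ω : Metric.sphere (0 : Ev n) 1, |inner ℝ (ω : Ev n) e| ^ k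
        ∂(volume : Measure (Ev n)).toSphere) * Real.Gamma (((n : ℝ) + k) / 2)
      = 2 * Real.Gamma (((k : ℝ) + 1) / 2) * √Real.pi ^ (n - 1) := by
  have h := s4_polar hn e he k
  rw [s4_gauss hn e he k, s4R_eq] at h
  have h3 : (((n - 1 + k : ℕ) : ℝ) + 1) / 2 = ((n : ℝ) + k) / 2 := by
    push_cast [Nat.cast_sub hn]
    ring
  rw [h3] at h
  linarith


theorem om_four : om 4 = Real.pi ^ 2 / 2 := by
  unfold om
  rw [EuclideanSpace.volume_ball]
  simp only [ENNReal.ofReal_one, one_pow, one_mul, Fintype.card_fin]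
  have h1 : ((4 : ℕ) : ℝ) / 2 + 1 = ((2 : ℕ) : ℝ) + 1 := by norm_num
  rw [h1, Real.Gamma_nat_eq_factorial]
  have h2 : √Real.pi ^ 4 = Real.pi ^ 2 := by
    have : √Real.pi ^ 4 = (√Real.pi ^ 2) ^ 2 := by ring
    rw [this, Real.sq_sqrt Real.pi_pos.le]
  rw [h2, ENNReal.toReal_ofReal (by positivity)]
  norm_num [Nat.factorial]

/-- the one-dimensional moments -/
private noncomputable def s4a (k : ℕ) : ℝ := ∫ c in (0 : ℝ)..1, c ^ k * √(1 - c ^ 2)

private theorem s4a_rec (k : ℕ) : s4a (k + 2) = (k + 1) / (4 + k) * s4a k := by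
  -- antiderivative `c^(k+1) (1 - c^2) √(1 - c^2)`
  have hd : ∀ c ∈ Ioo (0 : ℝ) 1, HasDerivAt (fun c : ℝ => c ^ (k + 1) * ((1 - c ^ 2) * √(1 - c ^ 2)))
      ((k + 1) * (c ^ k * √(1 - c ^ 2)) - (4 + k) * (c ^ (k + 2) * √(1 - c ^ 2))) c := by
    intro c hc
    have hpos : 0 < 1 - c ^ 2 := by nlinarith [hc.1, hc.2]
    have h1 : HasDerivAt (fun c : ℝ => 1 - c ^ 2) (-(2 * c)) c := by
      have := ((hasDerivAt_pow 2 c).const_sub 1)
      refine this.congr_deriv ?_
      norm_num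
    have h2 := h1.sqrt hpos.ne'
    have h3 := (hasDerivAt_pow (k + 1) c).mul (h1.mul h2)
    refine h3.congr_deriv ?_
    have hs : √(1 - c ^ 2) * √(1 - c ^ 2) = 1 - c ^ 2 := Real.mul_self_sqrt hpos.le
    have hs0 : √(1 - c ^ 2) ≠ 0 := (Real.sqrt_pos.2 hpos).ne'
    have e1 : (1 - c ^ 2) * (-(2 * c) / (2 * √(1 - c ^ 2))) = -(c * √(1 - c ^ 2)) := by
      field_simp
      rw [Real.sq_sqrt hpos.le]
    simp only [Pi.mul_apply]
    rw [e1]
    have e2 : k + 1 - 1 = k := by omega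
    rw [e2]
    push_cast
    ring
  have hc : ContinuousOn (fun c : ℝ => c ^ (k + 1) * ((1 - c ^ 2) * √(1 - c ^ 2))) (Icc 0 1) := by
    fun_prop
  have hi : ∀ j : ℕ, IntervalIntegrable (fun c : ℝ => c ^ j * √(1 - c ^ 2)) volume 0 1 := by
    intro j
    apply Continuous.intervalIntegrable
    fun_prop
  have hi2 : IntervalIntegrable (fun c : ℝ => (k + 1) * (c ^ k * √(1 - c ^ 2))
      - (4 + k) * (c ^ (k + 2) * √(1 - c ^ 2))) volume 0 1 :=
    ((hi k).const_mul _).sub ((hi (k + 2)).const_mul _)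
  have h := intervalIntegral.integral_eq_sub_of_hasDerivAt_of_le (by norm_num : (0 : ℝ) ≤ 1) hc hd hi2
  rw [intervalIntegral.integral_sub ((hi k).const_mul _) ((hi (k + 2)).const_mul _),
    intervalIntegral.integral_const_mul, intervalIntegral.integral_const_mul] at h
  have h0 : (k + 1) * s4a k - (4 + k) * s4a (k + 2) = 0 := by
    unfold s4a
    rw [h]
    norm_num
  have hk : (0 : ℝ) < 4 + k := by positivity
  rw [div_mul_eq_mul_div, eq_div_iff hk.ne']
  linarith

private theorem s4a_zero : s4a 0 = Real.pi / 4 := by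
  unfold s4a
  simp only [pow_zero, one_mul]
  -- half of the unit disc
  have h1 : ∫ c in (-1 : ℝ)..1, √(1 - c ^ 2) = Real.pi / 2 := integral_sqrt_one_sub_sq
  have hi : ∀ a b : ℝ, IntervalIntegrable (fun c : ℝ => √(1 - c ^ 2)) volume a b := by
    intro a b
    apply Continuous.intervalIntegrable
    fun_prop
  have h2 := intervalIntegral.integral_add_adjacent_intervals (hi (-1) 0) (hi 0 1)
  have h3 : ∫ c in (-1 : ℝ)..0, √(1 - c ^ 2) = ∫ c in (0 : ℝ)..1, √(1 - c ^ 2) := by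
    have := intervalIntegral.integral_comp_neg (a := (0 : ℝ)) (b := 1) (fun c : ℝ => √(1 - c ^ 2))
    simp only [neg_sq, neg_zero] at this
    exact this.symm
  rw [h1, h3] at h2
  linarith

private theorem s4a_one : s4a 1 = 1 / 3 := by
  have hd : ∀ c ∈ Ioo (0 : ℝ) 1, HasDerivAt (fun c : ℝ => -(1 / 3) * ((1 - c ^ 2) * √(1 - c ^ 2)))
      (c ^ 1 * √(1 - c ^ 2)) c := by
    intro c hc
    have hpos : 0 < 1 - c ^ 2 := by nlinarith [hc.1, hc.2]
    have h1 : HasDerivAt (fun c : ℝ => 1 - c ^ 2) (-(2 * c)) c := by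
      have := ((hasDerivAt_pow 2 c).const_sub 1)
      refine this.congr_deriv ?_
      norm_num
    have h2 := h1.sqrt hpos.ne'
    have h3 := (h1.mul h2).const_mul (-(1 / 3) : ℝ)
    refine h3.congr_deriv ?_
    have hs0 : √(1 - c ^ 2) ≠ 0 := (Real.sqrt_pos.2 hpos).ne'
    have e1 : (1 - c ^ 2) * (-(2 * c) / (2 * √(1 - c ^ 2))) = -(c * √(1 - c ^ 2)) := by
      field_simp
      rw [Real.sq_sqrt hpos.le]
    rw [e1]
    ring
  have hc : ContinuousOn (fun c : ℝ => -(1 / 3) * ((1 - c ^ 2) * √(1 - c ^ 2))) (Icc 0 1) := by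
    fun_prop
  have hi : IntervalIntegrable (fun c : ℝ => c ^ 1 * √(1 - c ^ 2)) volume 0 1 := by
    apply Continuous.intervalIntegrable
    fun_prop
  have h := intervalIntegral.integral_eq_sub_of_hasDerivAt_of_le (by norm_num : (0 : ℝ) ≤ 1) hc hd hi
  unfold s4a
  rw [h]
  norm_num

/-- the sphere moments -/
private noncomputable def s4I (e : Ev 4) (k : ℕ) : ℝ :=
  ∫ ω : Metric.sphere (0 : Ev 4) 1, |inner ℝ (ω : Ev 4) e| ^ k
      ∂(volume : Measure (Ev 4)).toSphere

private theorem s4I_one (e : Ev 4) (he : ‖e‖ = 1) : s4I e 1 = 8 * Real.pi / 3 := by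
  have h := s4_formula (n := 4) (by norm_num) e he 1
  have e1 : (((4 : ℕ) : ℝ) + ((1 : ℕ) : ℝ)) / 2 = 3 / 2 + 1 := by norm_num
  have e2 : (((1 : ℕ) : ℝ) + 1) / 2 = 1 := by norm_num
  have e3 : Real.Gamma (3 / 2 : ℝ) = √Real.pi / 2 := by
    have : (3 / 2 : ℝ) = 1 / 2 + 1 := by norm_num
    rw [this, Real.Gamma_add_one (by norm_num), Real.Gamma_one_half_eq]
    ring
  rw [e1, e2, Real.Gamma_add_one (by norm_num), e3, Real.Gamma_one] at h
  have hp : 0 < √Real.pi := Real.sqrt_pos.2 Real.pi_pos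
  have h3 : √Real.pi ^ (4 - 1) = Real.pi * √Real.pi := by
    have : √Real.pi ^ (4 - 1) = √Real.pi ^ 2 * √Real.pi := by norm_num [pow_succ]
    rw [this, Real.sq_sqrt Real.pi_pos.le]
  rw [h3] at h
  have h4 : s4I e 1 * (3 / 4) = 2 * Real.pi := by
    apply mul_right_cancel₀ hp.ne'
    unfold s4I
    linear_combination h
  linarith

private theorem s4I_zero (e : Ev 4) (he : ‖e‖ = 1) : s4I e 0 = 2 * Real.pi ^ 2 := by
  have h := sphere_moment_abs_chord (n := 4) (by norm_num) e he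
  have h2 := sphere_moment_abs_rec (n := 4) (by norm_num) e he 0
  rw [om_four] at h
  have e1 : 4 - 2 = 2 := by norm_num
  rw [e1] at h
  rw [zero_add] at h2
  have h3 : s4I e 2 = 1 / 4 * s4I e 0 := by
    unfold s4I
    rw [h2]
    norm_num
  have h4 : 2 ^ 2 * s4I e 2 = 4 * (Real.pi ^ 2 / 2) := by
    unfold s4I
    exact_mod_cast h
  rw [h3] at h4
  linarith

private theorem s4_moments (e : Ev 4) (he : ‖e‖ = 1) (k : ℕ) :
    s4I e k = 8 * Real.pi * s4a k ∧ s4I e (k + 1) = 8 * Real.pi * s4a (k + 1) := by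
  induction k with
  | zero =>
    refine ⟨?_, ?_⟩
    · rw [s4I_zero e he, s4a_zero]; ring
    · rw [zero_add, s4I_one e he, s4a_one]; ring
  | succ k ih =>
    refine ⟨ih.2, ?_⟩
    have h2 : s4I e (k + 2) = (k + 1) / (4 + k) * s4I e k := by
      have := sphere_moment_abs_rec (n := 4) (by norm_num) e he k
      unfold s4I
      exact_mod_cast this
    have h3 : k + 1 + 1 = k + 2 := rfl
    rw [h3, h2, s4a_rec, ih.1]
    ring

private theorem s4_mem (e : Ev 4) (he : ‖e‖ = 1) (ω : Metric.sphere (0 : Ev 4) 1) :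
    |inner ℝ (ω : Ev 4) e| ∈ Icc (0 : ℝ) 1 := by
  refine ⟨abs_nonneg _, ?_⟩
  have h := abs_real_inner_le_norm (ω : Ev 4) e
  have h2 : ‖(ω : Ev 4)‖ = 1 := by simp
  rwa [he, h2, mul_one] at h

private theorem s4_int (e : Ev 4) (he : ‖e‖ = 1) (G : ℝ → ℝ) (hG : ContinuousOn G (Icc 0 1)) :
    Integrable (fun ω : Metric.sphere (0 : Ev 4) 1 => G |inner ℝ (ω : Ev 4) e|)
      (volume : Measure (Ev 4)).toSphere := by
  have hc : Continuous (fun ω : Metric.sphere (0 : Ev 4) 1 => G |inner ℝ (ω : Ev 4) e|) := by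
    refine hG.comp_continuous ?_ (s4_mem e he)
    fun_prop
  exact hc.integrable_of_hasCompactSupport (HasCompactSupport.of_compactSpace _)

private theorem s4_iint (G : ℝ → ℝ) (hG : ContinuousOn G (Icc 0 1)) :
    IntervalIntegrable (fun c : ℝ => G c * √(1 - c ^ 2)) volume 0 1 := by
  apply ContinuousOn.intervalIntegrable
  rw [Set.uIcc_of_le (by norm_num)]
  exact hG.mul (by fun_prop)

private theorem s4_poly (e : Ev 4) (he : ‖e‖ = 1) (p : Polynomial ℝ) :
    ∫ ω : Metric.sphere (0 : Ev 4) 1, p.eval |inner ℝ (ω : Ev 4) e|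
      ∂(volume : Measure (Ev 4)).toSphere
      = 8 * Real.pi * ∫ c in (0 : ℝ)..1, p.eval c * √(1 - c ^ 2) := by
  have h1 : ∫ ω : Metric.sphere (0 : Ev 4) 1, p.eval |inner ℝ (ω : Ev 4) e|
      ∂(volume : Measure (Ev 4)).toSphere
      = ∑ k ∈ Finset.range (p.natDegree + 1), p.coeff k * s4I e k := by
    simp only [Polynomial.eval_eq_sum_range]
    rw [integral_finsetSum]
    · refine Finset.sum_congr rfl fun k _ => ?_
      rw [integral_const_mul]
      rfl
    · intro k _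
      exact (s4_int e he (fun c => c ^ k) (by fun_prop)).const_mul _
  have h2 : ∫ c in (0 : ℝ)..1, p.eval c * √(1 - c ^ 2)
      = ∑ k ∈ Finset.range (p.natDegree + 1), p.coeff k * s4a k := by
    simp only [Polynomial.eval_eq_sum_range, Finset.sum_mul]
    rw [intervalIntegral.integral_finsetSum]
    · refine Finset.sum_congr rfl fun k _ => ?_
      unfold s4a
      rw [← intervalIntegral.integral_const_mul]
      refine intervalIntegral.integral_congr fun c _ => ?_
      ring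
    · intro k _
      apply Continuous.intervalIntegrable
      fun_prop
  rw [h1, h2, Finset.mul_sum]
  refine Finset.sum_congr rfl fun k _ => ?_
  rw [(s4_moments e he k).1]
  ring

theorem sphere_abs_four (e : Ev 4) (he : ‖e‖ = 1) (G : ℝ → ℝ) (hG : ContinuousOn G (Icc 0 1)) :
    ∫ ω : Metric.sphere (0 : Ev 4) 1, G |inner ℝ (ω : Ev 4) e|
      ∂(volume : Measure (Ev 4)).toSphere
      = 8 * Real.pi * ∫ c in (0 : ℝ)..1, G c * √(1 - c ^ 2) := by
  set μ := (volume : Measure (Ev 4)).toSphere with hμ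
  have key : ∀ ε : ℝ, 0 < ε → |(∫ ω : Metric.sphere (0 : Ev 4) 1, G |inner ℝ (ω : Ev 4) e| ∂μ)
      - 8 * Real.pi * ∫ c in (0 : ℝ)..1, G c * √(1 - c ^ 2)|
      ≤ ε * (μ.real univ + 8 * Real.pi) := by
    intro ε hε
    obtain ⟨p, hp⟩ := exists_polynomial_near_of_continuousOn 0 1 G hG ε hε
    have hpc : ContinuousOn (fun c : ℝ => p.eval c) (Icc 0 1) := p.continuous.continuousOn
    have h0 := s4_poly e he p
    have h1 : |(∫ ω : Metric.sphere (0 : Ev 4) 1, G |inner ℝ (ω : Ev 4) e| ∂μ)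
        - ∫ ω : Metric.sphere (0 : Ev 4) 1, p.eval |inner ℝ (ω : Ev 4) e| ∂μ|
        ≤ ε * μ.real univ := by
      rw [← integral_sub (s4_int e he G hG) (s4_int e he (fun c => p.eval c) hpc)]
      rw [← Real.norm_eq_abs]
      refine norm_integral_le_of_norm_le_const (Eventually.of_forall fun ω => ?_)
      rw [Real.norm_eq_abs, abs_sub_comm]
      exact (hp _ (s4_mem e he ω)).le
    have h2 : |(∫ c in (0 : ℝ)..1, G c * √(1 - c ^ 2)) - ∫ c in (0 : ℝ)..1, p.eval c * √(1 - c ^ 2)|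
        ≤ ε := by
      rw [← intervalIntegral.integral_sub (s4_iint G hG) (s4_iint (fun c => p.eval c) hpc)]
      have h3 := intervalIntegral.norm_integral_le_of_norm_le_const (a := (0 : ℝ)) (b := 1) (C := ε)
        (f := fun c : ℝ => G c * √(1 - c ^ 2) - p.eval c * √(1 - c ^ 2)) ?_
      · rw [Real.norm_eq_abs] at h3
        simpa using h3
      · intro c hc
        rw [Set.uIoc_of_le (by norm_num)] at hc
        have hc' : c ∈ Icc (0 : ℝ) 1 := ⟨hc.1.le, hc.2⟩
        rw [← sub_mul, norm_mul, Real.norm_eq_abs, Real.norm_eq_abs, abs_sub_comm]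
        have h4 : |√(1 - c ^ 2)| ≤ 1 := by
          rw [abs_of_nonneg (Real.sqrt_nonneg _)]
          exact Real.sqrt_le_iff.2 ⟨by norm_num, by nlinarith [sq_nonneg c]⟩
        calc |p.eval c - G c| * |√(1 - c ^ 2)| ≤ ε * 1 :=
              mul_le_mul (hp c hc').le h4 (abs_nonneg _) hε.le
          _ = ε := mul_one ε
    have h5 : (∫ ω : Metric.sphere (0 : Ev 4) 1, G |inner ℝ (ω : Ev 4) e| ∂μ)
        - 8 * Real.pi * ∫ c in (0 : ℝ)..1, G c * √(1 - c ^ 2)
        = ((∫ ω : Metric.sphere (0 : Ev 4) 1, G |inner ℝ (ω : Ev 4) e| ∂μ)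
        - ∫ ω : Metric.sphere (0 : Ev 4) 1, p.eval |inner ℝ (ω : Ev 4) e| ∂μ)
        - 8 * Real.pi * ((∫ c in (0 : ℝ)..1, G c * √(1 - c ^ 2))
          - ∫ c in (0 : ℝ)..1, p.eval c * √(1 - c ^ 2)) := by
      rw [h0]
      ring
    rw [h5]
    refine (abs_sub _ _).trans ?_
    rw [abs_mul, abs_of_pos (by positivity : (0 : ℝ) < 8 * Real.pi), mul_add]
    refine add_le_add h1 ?_
    calc 8 * Real.pi * |(∫ c in (0 : ℝ)..1, G c * √(1 - c ^ 2))
          - ∫ c in (0 : ℝ)..1, p.eval c * √(1 - c ^ 2)| ≤ 8 * Real.pi * ε :=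
          mul_le_mul_of_nonneg_left h2 (by positivity)
      _ = ε * (8 * Real.pi) := by ring
  have hC : 0 < μ.real univ + 8 * Real.pi := by positivity
  rw [← sub_eq_zero, ← abs_eq_zero]
  by_contra hne
  have hpos : 0 < |(∫ ω : Metric.sphere (0 : Ev 4) 1, G |inner ℝ (ω : Ev 4) e| ∂μ)
      - 8 * Real.pi * ∫ c in (0 : ℝ)..1, G c * √(1 - c ^ 2)| :=
    lt_of_le_of_ne (abs_nonneg _) (Ne.symm hne)
  have h := key (|(∫ ω : Metric.sphere (0 : Ev 4) 1, G |inner ℝ (ω : Ev 4) e| ∂μ)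
      - 8 * Real.pi * ∫ c in (0 : ℝ)..1, G c * √(1 - c ^ 2)| / (2 * (μ.real univ + 8 * Real.pi)))
      (by positivity)
  rw [div_mul_eq_mul_div, le_div_iff₀ (by positivity)] at h
  nlinarith

end Vale.Agent.Lib.P219
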